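import Vale.Agent.P237.Full.Loss.Explicit

/-!
P237: the constant `exp (-100)` in every dimension from the loss `227 / ((n-2)(n-4))` at the contacts
in dimensions six and higher.
-/

namespace Vale.Agent.P237.Full

open MeasureTheory Set
open scoped ENNReal

variable (H : ∀ n, 6 ≤ n →
  ContactBoundC n (Real.exp (-(227 / (((n : ℝ) - 2) * ((n : ℝ) - 4))))))

/-- The losses telescope. -/
theorem sum_loss_le {n : ℕ} (hn : 5 ≤ n) :
    ∑ k ∈ Finset.Ioc 5 n, (227 : ℝ) / (((k : ℝ) - 2) * ((k : ℝ) - 4)) ≤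
      227 / 2 * (5 / 6 - 1 / ((n : ℝ) - 3) - 1 / ((n : ℝ) - 2)) := by
  induction n, hn using Nat.le_induction with
  | base => norm_num
  | succ k hk ih =>
    rw [Finset.sum_Ioc_succ_top hk]
    refine (add_le_add_left ih _).trans (le_of_eq ?_)
    have hk' : (5 : ℝ) ≤ k := by exact_mod_cast hk
    have a1 : (k : ℝ) - 1 ≠ 0 := by linarith
    have a2 : (k : ℝ) - 2 ≠ 0 := by linarith
    have a3 : (k : ℝ) - 3 ≠ 0 := by linarith
    push_cast
    rw [show (k : ℝ) + 1 - 2 = k - 1 by ring, show (k : ℝ) + 1 - 3 = k - 2 by ring,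
      show (k : ℝ) + 1 - 4 = k - 3 by ring]
    field_simp
    ring

include H in
/-- One constant in all dimensions from the contact losses above dimension five. -/
theorem pettyAtC_exp {n : ℕ} (hn : 3 ≤ n) : PettyAtC n (Real.exp (-100)) := by
  have h4 : PettyAtC 4 (1 * (1 / 4)) :=
    pettyC_step (n := 4) (by norm_num) zero_le_one pettyAtC_three contactBoundC_four
  have h5 : PettyAtC 5 (1 * (1 / 4) * (1 / 4)) :=
    pettyC_step (n := 5) (by norm_num) (by norm_num) h4 contactBoundC_five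
  have he : Real.exp (-100) ≤ 1 * (1 / 4) * (1 / 4) * Real.exp (-95) := by
    rw [show (-100 : ℝ) = -5 + -95 by norm_num, Real.exp_add]
    refine mul_le_mul_of_nonneg_right ?_ (Real.exp_pos _).le
    rw [Real.exp_neg, show (1 : ℝ) * (1 / 4) * (1 / 4) = 16⁻¹ by norm_num]
    refine inv_anti₀ (by norm_num) ?_
    calc (16 : ℝ) ≤ 2 ^ 5 := by norm_num
      _ ≤ Real.exp 1 ^ 5 := pow_le_pow_left₀ (by norm_num)
          (by linarith [Real.add_one_le_exp 1]) 5
      _ = Real.exp 5 := by rw [← Real.exp_nat_mul]; norm_num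
  rcases Nat.lt_or_ge n 5 with h | h
  · have hx : Real.exp (-95) ≤ 1 := Real.exp_le_one_iff.2 (by norm_num)
    obtain rfl | rfl : n = 3 ∨ n = 4 := by omega
    · exact pettyAtC_three.mono (Real.exp_le_one_iff.2 (by norm_num))
    · exact h4.mono (by linarith)
  · refine PettyAtC.mono ?_ he
    refine pettyC_chain (by norm_num) (by norm_num) h5
      (d := fun k => 227 / (((k : ℝ) - 2) * ((k : ℝ) - 4))) (fun k hk => H k hk)
      (fun j hj => (sum_loss_le hj).trans ?_) h
    have hj' : (5 : ℝ) ≤ j := by exact_mod_cast hj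
    have b1 : 0 ≤ 1 / ((j : ℝ) - 3) := div_nonneg zero_le_one (by linarith)
    have b2 : 0 ≤ 1 / ((j : ℝ) - 2) := div_nonneg zero_le_one (by linarith)
    linarith

end Vale.Agent.P237.Full
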