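import Vale.Agent.P237.Full.Loss.Step
import Vale.Agent.P237.Full.Profile

/-!
P237: a contact bound with a loss from an inequality between integrals of the profiles.
-/

namespace Vale.Agent.P237.Full

open MeasureTheory Set
open scoped RealInnerProductSpace

/-- If among the profiles of the contacts one has the integral of its power `m - 1` at least that
of the ball at the volume of the body, up to the factor `e`, the contact bound holds with loss. -/
theorem contactBoundC_of_profiles {m : ℕ} (hm : 2 ≤ m) {e : ℝ}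
    (H : ∀ (N : ℕ) (K : Set (EuclideanSpace ℝ (Fin (m + 1)))) (c : Fin N → ℝ)
      (u : Fin N → EuclideanSpace ℝ (Fin (m + 1))) (φ : Fin N → ℝ → ℝ), InJohn K c u →
      (∀ i, IsProfile m (φ i)) →
      (∀ i t, sect K (u i) t = if |t| ≤ 1 then kappa m * φ i t ^ m else 0) →
      ∃ i, e * (kappa m / kappa (m - 1)) ^ m *
        ((volume K).toReal / kappa (m + 1)) ^ (m - 1) ≤
          (∫ t in Icc (-1 : ℝ) 1, φ i t ^ (m - 1)) ^ m) :
    ContactBoundC (m + 1) e := by
  intro N K c u h
  choose φ hφ hs using fun i => exists_profile (by omega) h i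
  simp only [Nat.add_sub_cancel] at hφ hs
  obtain ⟨i, hi⟩ := H N K c u φ h hφ hs
  refine ⟨i, ?_⟩
  set P := ∫ t in Icc (-1 : ℝ) 1, φ i t ^ (m - 1) with hP
  have hκ := kappa_pos m
  have hm0 : (m : ℝ) ≠ 0 := by norm_cast; omega
  have hsp : sectPow K (u i) = kappa m ^ (m - 1) * P ^ m := by
    rw [sectPow, Nat.add_sub_cancel]
    have e : (∫ t, sect K (u i) t ^ ((((m + 1 : ℕ) : ℝ) - 2) / (((m + 1 : ℕ) : ℝ) - 1))) =
        kappa m ^ (((m - 1 : ℕ) : ℝ) / (m : ℝ)) * P := by
      rw [show (((m + 1 : ℕ) : ℝ) - 2) / (((m + 1 : ℕ) : ℝ) - 1) = ((m - 1 : ℕ) : ℝ) / (m : ℝ) by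
        rw [Nat.cast_sub (by omega)]; push_cast; ring, hP, ← integral_const_mul,
        ← integral_indicator measurableSet_Icc]
      refine integral_congr_ae (Filter.Eventually.of_forall fun t => ?_)
      simp only [hs i t, indicator, mem_Icc, ← abs_le]
      split_ifs with ht
      · have h0 : 0 ≤ φ i t := (Real.sqrt_nonneg _).trans ((hφ i).above t (abs_le.1 ht))
        rw [Real.mul_rpow hκ.le (pow_nonneg h0 m), ← Real.rpow_natCast (φ i t) m,
          ← Real.rpow_mul h0, mul_div_cancel₀ _ hm0, Real.rpow_natCast]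
      · refine Real.zero_rpow (div_ne_zero ?_ hm0)
        norm_cast; omega
    rw [e, mul_pow, ← Real.rpow_natCast (kappa m ^ (((m - 1 : ℕ) : ℝ) / (m : ℝ))) m,
      ← Real.rpow_mul hκ.le, div_mul_cancel₀ _ hm0, Real.rpow_natCast]
  have hκ1 := kappa_pos (m - 1)
  have hκ2 := kappa_pos (m + 1)
  rw [show m + 1 - 1 = m by omega, show m + 1 - 2 = m - 1 by omega,
    show 2 * (m + 1) - 3 = (m - 1) + m by omega, hsp]
  have lhs : e * kappa m ^ (m - 1 + m) * (volume K).toReal ^ (m - 1) =
      kappa m ^ (m - 1) * kappa (m - 1) ^ m * kappa (m + 1) ^ (m - 1) *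
        (e * (kappa m / kappa (m - 1)) ^ m *
          ((volume K).toReal / kappa (m + 1)) ^ (m - 1)) := by
    rw [div_pow, div_pow, pow_add]
    field_simp
  rw [lhs]
  refine (mul_le_mul_of_nonneg_left hi (by positivity)).trans (le_of_eq ?_)
  ring

end Vale.Agent.P237.Full
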