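import Vale.Agent.P237.Full.Loss.Step
import Vale.Agent.P237.Full.Loss.Profile
import Vale.Agent.P237.Full.Lemma3

/-!
P237: a crude contact bound in each dimension and the induction with explicit constants.
-/

namespace Vale.Agent.P237.Full

open MeasureTheory Set
open scoped RealInnerProductSpace

/-- Every contact direction has at least the section integral of a double cone at that volume. -/
theorem contactBoundC_crude {m : ℕ} (hm : 2 ≤ m) :
    ContactBoundC (m + 1) (2 / ((m : ℝ) + 1) * (kappa (m + 1) / kappa m) ^ (m - 1) /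
      (kappa m / kappa (m - 1)) ^ m) := by
  refine contactBoundC_of_profiles hm fun N K c u φ h hφ hs => ?_
  have hV : 0 < (volume K).toReal := vol_pos h.1
  have hN : Nonempty (Fin N) := by
    rcases Nat.eq_zero_or_pos N with rfl | hN
    · have := h.2.2.2.2.2.1
      simp only [Finset.univ_eq_empty, Finset.sum_empty] at this
      exact absurd this (by positivity)
    · exact ⟨⟨0, hN⟩⟩
  obtain ⟨i⟩ := hN
  refine ⟨i, ?_⟩
  have hκ := kappa_pos m
  have h0 : ∀ t ∈ Icc (-1 : ℝ) 1, 0 ≤ φ i t := fun t ht =>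
    (Real.sqrt_nonneg _).trans ((hφ i).above t ht)
  have htop : ∀ t ∈ Icc (-1 : ℝ) 1, φ i t ≤ φ i 0 := fun t ht => by
    have h := (hφ i).concave.2 ht (show -t ∈ Icc (-1 : ℝ) 1 from ⟨by linarith [ht.2],
      by linarith [ht.1]⟩) (show (0 : ℝ) ≤ 1 / 2 by norm_num) (show (0 : ℝ) ≤ 1 / 2 by norm_num)
      (by norm_num)
    simp only [smul_eq_mul, (hφ i).even] at h
    rw [show 1 / 2 * t + 1 / 2 * (-t) = (0 : ℝ) by ring] at h
    linarith
  have h1 : 1 ≤ φ i 0 := by simpa using (hφ i).above 0 (by simp)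
  have hint : ∀ k : ℕ, IntegrableOn (fun t => φ i t ^ k) (Icc (-1 : ℝ) 1) := fun k => by
    rw [integrableOn_Icc_iff_integrableOn_Ioo]
    refine IntegrableOn.of_bound (by simp) (((hφ i).concave.subset Ioo_subset_Icc_self
      (convex_Ioo _ _)).continuousOn isOpen_Ioo |>.pow k |>.aestronglyMeasurable measurableSet_Ioo)
      (φ i 0 ^ k) ?_
    filter_upwards [ae_restrict_mem measurableSet_Ioo] with t ht
    have ht' := Ioo_subset_Icc_self ht
    rw [Real.norm_eq_abs, abs_pow, abs_of_nonneg (h0 t ht')]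
    exact pow_le_pow_left₀ (h0 t ht') (htop t ht') k
  set I := ∫ t in Icc (-1 : ℝ) 1, φ i t ^ m with hI
  set P := ∫ t in Icc (-1 : ℝ) 1, φ i t ^ (m - 1) with hP
  have hvol : (volume K).toReal = kappa m * I := by
    have h1 := integral_sect_mul h.1 (h.2.2.2.2.1 i) (continuous_const (y := (1 : ℝ)))
    rw [setIntegral_const, smul_eq_mul, mul_one, measureReal_def] at h1
    rw [← h1, hI, ← integral_const_mul, ← integral_indicator measurableSet_Icc]
    refine integral_congr_ae (Filter.Eventually.of_forall fun t => ?_)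
    simp only [hs i t, indicator, mem_Icc, ← abs_le, one_mul]
  have hI0 : 0 < I := pos_of_mul_pos_right (hvol ▸ hV) hκ.le
  have hPI : I ≤ φ i 0 * P := by
    rw [hI, hP, ← integral_const_mul]
    refine setIntegral_mono_on (hint m) ((hint (m - 1)).const_mul _) measurableSet_Icc fun t ht => ?_
    conv_lhs => rw [show m = m - 1 + 1 by omega, pow_succ']
    exact mul_le_mul_of_nonneg_right (htop t ht) (pow_nonneg (h0 t ht) _)
  have hcone : φ i 0 ^ m * (2 / ((m : ℝ) + 1)) ≤ I := by
    have e : ∫ t in Icc (-1 : ℝ) 1, (φ i 0 * (1 - |t|)) ^ m =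
        φ i 0 ^ m * (2 / ((m : ℝ) + 1)) := by
      simp only [mul_pow]
      rw [integral_const_mul, integral_Icc_eq_integral_Ioc,
        ← intervalIntegral.integral_of_le (by norm_num),
        ← intervalIntegral.integral_add_adjacent_intervals (b := (0 : ℝ))
          ((by fun_prop : Continuous fun t : ℝ => (1 - |t|) ^ m).intervalIntegrable _ _)
          ((by fun_prop : Continuous fun t : ℝ => (1 - |t|) ^ m).intervalIntegrable _ _)]
      congr 1
      rw [intervalIntegral.integral_congr (a := -1) (b := 0) (g := fun t => (1 + t) ^ m)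
          fun t ht => by
            rw [uIcc_of_le (by norm_num)] at ht
            simp only [abs_of_nonpos ht.2, sub_neg_eq_add],
        intervalIntegral.integral_congr (a := 0) (b := 1) (g := fun t => (1 - t) ^ m)
          fun t ht => by
            rw [uIcc_of_le (by norm_num)] at ht
            simp only [abs_of_nonneg ht.1],
        intervalIntegral.integral_comp_add_left (fun t => t ^ m) 1,
        intervalIntegral.integral_comp_sub_left (fun t => t ^ m) 1, integral_pow]
      norm_num
      field_simp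
      ring
    rw [← e]
    refine setIntegral_mono_on ?_ (hint m) measurableSet_Icc fun t ht => ?_
    · exact ((by fun_prop : Continuous fun t : ℝ => (φ i 0 * (1 - |t|)) ^ m).integrableOn_Icc)
    have ha : |t| ≤ 1 := abs_le.2 ht
    refine pow_le_pow_left₀ (mul_nonneg (by linarith) (by linarith)) ?_ m
    have he : φ i t = φ i |t| := by
      rcases abs_choice t with e | e <;> rw [e]
      rw [(hφ i).even]
    have h2 := (hφ i).concave.2 (show (0 : ℝ) ∈ Icc (-1 : ℝ) 1 by simp)
      (show (1 : ℝ) ∈ Icc (-1 : ℝ) 1 by simp) (show 0 ≤ 1 - |t| by linarith) (abs_nonneg t)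
      (by ring)
    simp only [smul_eq_mul, mul_zero, mul_one, zero_add] at h2
    have := mul_nonneg (abs_nonneg t) (h0 1 (by simp))
    rw [he]
    linarith
  have hm1 : m - 1 + 1 = m := by omega
  have key : 2 / ((m : ℝ) + 1) * I ^ (m - 1) ≤ P ^ m := by
    refine le_of_mul_le_mul_left ?_ (show 0 < φ i 0 ^ m from pow_pos (by linarith) m)
    calc φ i 0 ^ m * (2 / ((m : ℝ) + 1) * I ^ (m - 1))
        ≤ I * I ^ (m - 1) := by
          rw [← mul_assoc]; exact mul_le_mul_of_nonneg_right hcone (pow_nonneg hI0.le _)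
      _ = I ^ m := by rw [← pow_succ', hm1]
      _ ≤ (φ i 0 * P) ^ m := pow_le_pow_left₀ hI0.le hPI m
      _ = φ i 0 ^ m * P ^ m := mul_pow _ _ _
  refine le_trans (le_of_eq ?_) key
  have hk1 := kappa_pos (m - 1)
  have hk2 := kappa_pos (m + 1)
  rw [hvol]
  simp only [div_pow, mul_pow]
  field_simp

/-- Petty's inequality in dimension three, as a constant. -/
theorem pettyAtC_three : PettyAtC 3 1 := by
  intro K hK
  have := (petty_step le_rfl (inputs le_rfl) contactBound_three petty_two).1 K hK
  simpa using this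

/-- The constant in dimension `n₀`, times the accumulated losses, works in all higher dimensions. -/
theorem pettyC_chain {n₀ : ℕ} (hn₀ : 2 ≤ n₀) {c : ℝ} (hc : 0 ≤ c) (h₀ : PettyAtC n₀ c)
    {d : ℕ → ℝ} {D : ℝ} (H : ∀ k, n₀ < k → ContactBoundC k (Real.exp (-d k)))
    (hD : ∀ n, n₀ ≤ n → ∑ k ∈ Finset.Ioc n₀ n, d k ≤ D) {n : ℕ} (hn : n₀ ≤ n) :
    PettyAtC n (c * Real.exp (-D)) := by
  refine PettyAtC.mono ?_ (mul_le_mul_of_nonneg_left
    (Real.exp_le_exp.2 (neg_le_neg (hD n hn))) hc)
  clear hD
  induction n, hn using Nat.le_induction with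
  | base => simpa using h₀
  | succ k hk ih =>
    rw [Finset.sum_Ioc_succ_top hk, neg_add, Real.exp_add, ← mul_assoc]
    exact pettyC_step (n := k + 1) (by omega) (mul_nonneg hc (Real.exp_pos _).le) ih
      (H (k + 1) (by omega))

/-- The crude loss in dimension four. -/
theorem contactBoundC_four : ContactBoundC 4 (1 / 4) := by
  intro N K c u h
  obtain ⟨i, hi⟩ := contactBoundC_crude (m := 3) (by norm_num) N K c u h
  refine ⟨i, le_trans ?_ hi⟩
  have k4 : kappa 4 = Real.pi ^ 2 / 2 := by
    rw [kappa_add_two 2, kappa_add_two 0]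
    simp [kappa]
    ring
  have k2 : kappa 2 = Real.pi := by rw [kappa_add_two 0]; simp [kappa]
  refine mul_le_mul_of_nonneg_right (mul_le_mul_of_nonneg_right ?_
    (pow_nonneg (kappa_pos _).le _)) (pow_nonneg ENNReal.toReal_nonneg _)
  simp only [show (3 : ℕ) - 1 = 2 from rfl, show 3 + 1 = 4 from rfl, k2, k4, kappa_three]
  push_cast
  rw [le_div_iff₀ (by positivity)]
  field_simp
  nlinarith [Real.pi_gt_three, Real.pi_pos]

/-- The crude loss in dimension five. -/
theorem contactBoundC_five : ContactBoundC 5 (1 / 4) := by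
  intro N K c u h
  obtain ⟨i, hi⟩ := contactBoundC_crude (m := 4) (by norm_num) N K c u h
  refine ⟨i, le_trans ?_ hi⟩
  have k4 : kappa 4 = Real.pi ^ 2 / 2 := by
    rw [kappa_add_two 2, kappa_add_two 0]
    simp [kappa]
    ring
  have k5 : kappa 5 = 8 * Real.pi ^ 2 / 15 := by
    rw [kappa_add_two 3, kappa_three]
    push_cast
    ring
  refine mul_le_mul_of_nonneg_right (mul_le_mul_of_nonneg_right ?_
    (pow_nonneg (kappa_pos _).le _)) (pow_nonneg ENNReal.toReal_nonneg _)
  simp only [show (4 : ℕ) - 1 = 3 from rfl, show 4 + 1 = 5 from rfl, k4, k5, kappa_three]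
  push_cast
  have h4 : Real.pi ^ 4 ≤ 3.1416 ^ 4 := pow_le_pow_left₀ Real.pi_pos.le Real.pi_lt_d4.le 4
  rw [le_div_iff₀ (by positivity)]
  field_simp
  nlinarith [Real.pi_pos]

end Vale.Agent.P237.Full
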