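import Vale.Agent.P237.Full.Adapters

/-!
P237: one step of the induction with a multiplicative loss.
-/

namespace Vale.Agent.P237.Full

open MeasureTheory Set Metric
open scoped ENNReal RealInnerProductSpace Pointwise

/-- Petty's inequality for every convex body of one dimension, up to the factor `c`. -/
def PettyAtC (n : ℕ) (c : ℝ) : Prop :=
  ∀ K : Set (EuclideanSpace ℝ (Fin n)), IsBody K →
    c * kappa (n - 1) ^ n * (volume K).toReal ^ (n - 1) ≤
      kappa n ^ (n - 2) * (volume (projBody K)).toReal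

/-- In John position some contact direction has the section integral of the ball up to the
factor `e`. -/
def ContactBoundC (n : ℕ) (e : ℝ) : Prop :=
  ∀ (N : ℕ) (K : Set (EuclideanSpace ℝ (Fin n))) (c : Fin N → ℝ)
    (u : Fin N → EuclideanSpace ℝ (Fin n)), InJohn K c u →
    ∃ i, e * kappa (n - 1) ^ (2 * n - 3) * (volume K).toReal ^ (n - 2) ≤
      kappa (n - 2) ^ (n - 1) * kappa n ^ (n - 2) * sectPow K (u i)

theorem PettyAtC.mono {n : ℕ} {c c' : ℝ} (h : PettyAtC n c) (hc : c' ≤ c) : PettyAtC n c' :=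
  fun K hK => le_trans (mul_le_mul_of_nonneg_right (mul_le_mul_of_nonneg_right hc
    (pow_nonneg (kappa_pos _).le _)) (pow_nonneg ENNReal.toReal_nonneg _)) (h K hK)

/-- The inductive lower bound for the shadow of the projection body, with a loss. -/
theorem shadow_projBody_geC {m : ℕ} (hm : 2 ≤ m) {κ : ℝ} (hκ : 0 ≤ κ) (IH : PettyAtC m κ)
    {K : Set (EuclideanSpace ℝ (Fin (m + 1)))} (hK : IsBody K)
    {u : EuclideanSpace ℝ (Fin (m + 1))} (hu : ‖u‖ = 1) :
    κ * kappa (m - 1) ^ m * sectPow K u ≤ kappa m ^ (m - 2) * (shadow (projBody K) u).toReal := by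
  obtain ⟨hKc, cK, hne⟩ := hK
  have hk : 0 < kappa m ^ (m - 2) := pow_pos (kappa_pos m) _
  set c : ℝ≥0∞ := ENNReal.ofReal (κ * kappa (m - 1) ^ m / kappa m ^ (m - 2)) with hc
  have hc0 : 0 ≤ κ * kappa (m - 1) ^ m / kappa m ^ (m - 2) :=
    div_nonneg (mul_nonneg hκ (pow_nonneg (kappa_pos _).le _)) hk.le
  have hIH : ∀ L : Set (EuclideanSpace ℝ (Fin m)), Convex ℝ L → IsCompact L →
      (interior L).Nonempty → c * volume L ^ (m - 1) ≤ volume (projBody L) := by
    intro L hL cL hLi
    have h := IH L ⟨hL, cL, hLi⟩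
    rw [hc, ← ENNReal.ofReal_toReal cL.measure_ne_top,
      ← ENNReal.ofReal_toReal (isCompact_projBody' hL cL).measure_ne_top,
      ← ENNReal.ofReal_pow ENNReal.toReal_nonneg, ← ENNReal.ofReal_mul hc0]
    refine ENNReal.ofReal_le_ofReal ?_
    rw [div_mul_eq_mul_div, div_le_iff₀ hk]
    linarith
  have hE : Module.finrank ℝ (EuclideanSpace ℝ (Fin (m + 1))) = m + 1 := by simp
  have h := shadow_projBody_ge_secSet hm hE hIH hKc cK hne hu
  set p : ℝ := ((m : ℝ) - 1) / m with hp
  set S : ℝ → ℝ≥0∞ := fun t => volume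
    {w : ((ℝ ∙ u)ᗮ : Submodule ℝ (EuclideanSpace ℝ (Fin (m + 1)))) |
      t • u + (w : EuclideanSpace ℝ (Fin (m + 1))) ∈ K} with hS
  have hsect : sectPow K u = (∫⁻ t, S t ^ p).toReal ^ m := by
    rw [sectPow, Nat.add_sub_cancel,
      show ((((m + 1 : ℕ) : ℝ) - 2) / (((m + 1 : ℕ) : ℝ) - 1)) = p by
        rw [hp]; push_cast; ring_nf]
    congr 1
    have hsec : ∀ t, Vale.Agent.P237.Full.sect K u t = (S t).toReal := fun t => by
      simp only [Full.sect, hS, add_comm (t • u)]
    simp only [hsec]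
    have hm2 : (2 : ℝ) ≤ m := by exact_mod_cast hm
    have hp0 : 0 ≤ p := div_nonneg (by linarith) (by positivity)
    have hmeas : Measurable S := (lintegral_secSet hu cK).1
    rw [integral_eq_lintegral_of_nonneg_ae
      (Filter.Eventually.of_forall fun t => Real.rpow_nonneg ENNReal.toReal_nonneg p)
      (hmeas.ennreal_toReal.pow_const p).aestronglyMeasurable]
    congr 1
    refine lintegral_congr fun t => ?_
    rw [← ENNReal.ofReal_rpow_of_nonneg ENNReal.toReal_nonneg hp0,
      ENNReal.ofReal_toReal (show S t ≠ ⊤ from (isCompact_secSet hu cK t).measure_ne_top)]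
  rw [hsect]
  have h' := ENNReal.toReal_mono
    (shadow_ne_top (isCompact_projBody' hKc cK) u) h
  rw [ENNReal.toReal_mul, hc, ENNReal.toReal_ofReal hc0, ENNReal.toReal_pow,
    div_mul_eq_mul_div, div_le_iff₀ hk] at h'
  exact h'.trans_eq (mul_comm _ _)

/-- In every dimension some positive constant works. -/
theorem exists_pettyAtC {n : ℕ} (hn : 3 ≤ n) : ∃ c, 0 < c ∧ PettyAtC n c := by
  obtain ⟨hB, hR, -, -⟩ := inputs hn
  obtain ⟨K, hK⟩ := exists_minimiser_of_rules hn (imageRule n (by omega)) hB hR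
  have hV := vol_pos hK.1
  have hP := vol_pos (hB K hK.1)
  refine ⟨kappa n ^ (n - 2) * (volume (projBody K)).toReal /
    (kappa (n - 1) ^ n * (volume K).toReal ^ (n - 1)),
    div_pos (mul_pos (pow_pos (kappa_pos n) _) hP)
      (mul_pos (pow_pos (kappa_pos _) _) (pow_pos hV _)), fun L hL => ?_⟩
  have h := mul_le_mul_of_nonneg_left (hK.2 L hL) (pow_nonneg (kappa_pos n).le (n - 2))
  have hk := pow_pos (kappa_pos (n - 1)) n
  rw [div_mul_eq_mul_div, div_mul_eq_mul_div, div_le_iff₀ (mul_pos hk (pow_pos hV _))]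
  have := mul_le_mul_of_nonneg_left h hk.le
  linarith

/-- The constant one dimension below, times the loss at a contact, is a constant here. -/
theorem pettyC_step {n : ℕ} (hn : 3 ≤ n) {κ e : ℝ} (hκ : 0 ≤ κ) (IH : PettyAtC (n - 1) κ)
    (hC : ContactBoundC n e) : PettyAtC n (κ * e) := by
  obtain ⟨hB, hR, hF, -⟩ := inputs hn
  have hI := imageRule n (by omega)
  obtain ⟨m, rfl⟩ : ∃ m, n = m + 1 := ⟨n - 1, by omega⟩
  simp only [Nat.add_sub_cancel] at IH
  obtain ⟨K, hK⟩ := exists_minimiser_of_rules hn hI hB hR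
  obtain ⟨a, ha, -⟩ := hK.fixed hn hB hF
  set K1 := (fun x => x + -a) '' K with hK1
  have hK1b : IsBody K1 := body_translate _ hK.1
  have sK1 : ∀ x ∈ K1, -x ∈ K1 := by
    rintro _ ⟨z, hz, rfl⟩
    exact ⟨-(z + -a) + a, ha _ (by simpa using hz), by simp⟩
  obtain ⟨T, N, c, u, hc, hu, hsum, hres, hBK, hslab⟩ :=
    exists_john (by omega) hK1b.1 hK1b.2.1 hK1b.2.2 sK1
  set K2 := T '' K1 with hK2
  have hK2b : IsBody K2 := body_linear T hK1b
  have sK2 : ∀ x ∈ K2, -x ∈ K2 := by
    rintro _ ⟨z, hz, rfl⟩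
    exact ⟨-z, sK1 z hz, map_neg T z⟩
  have hmin : IsMinimiser K2 := by
    refine (isMinimiser_iff hK2b).2 fun L hL => ?_
    rw [hK2, ratio_linear hI T hK1b, hK1, ratio_translate]
    exact (isMinimiser_iff hK.1).1 hK L hL
  obtain ⟨b, hb, hval⟩ := hmin.fixed hn hB hF
  have hb0 : b = 0 := centre_eq_zero hK2b.2.1 (hK2b.2.2.mono interior_subset) sK2 hb
  obtain ⟨i, hi⟩ := hC N K2 c u ⟨hK2b, sK2, hBK, hc, hu, hsum, hres, hslab⟩
  obtain ⟨⟨x, hx, hxe⟩, -⟩ := hval (u i) (hu i)
  have h1 : ⟪x, u i⟫ ≤ 1 := by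
    rw [real_inner_comm]; exact (abs_le.1 (hslab i x hx)).2
  simp only [hb0, inner_zero_left, zero_add] at hxe
  rw [hxe, div_mul_eq_mul_div, div_le_one (vol_pos (hB K2 hK2b))] at h1
  have hS := shadow_projBody_geC (by omega) hκ IH hK2b (hu i)
  simp only [show m + 1 - 1 = m by omega, show m + 1 - 2 = m - 1 by omega,
    show 2 * (m + 1) - 3 = (m - 2) + (m + 1) by omega] at hi
  have hkm := kappa_pos m
  have hV := vol_pos hK2b
  -- the bound at the minimiser
  have hle : κ * e * kappa m ^ (m + 1) * (volume K2).toReal ^ m ≤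
      kappa (m + 1) ^ (m - 1) * (volume (projBody K2)).toReal := by
    refine le_of_mul_le_mul_left ?_ (pow_pos hkm (m - 2))
    have hpow : (volume K2).toReal ^ m = (volume K2).toReal * (volume K2).toReal ^ (m - 1) := by
      rw [← pow_succ', Nat.sub_add_cancel (by omega)]
    calc kappa m ^ (m - 2) * (κ * e * kappa m ^ (m + 1) * (volume K2).toReal ^ m)
        = κ * (volume K2).toReal *
          (e * kappa m ^ (m - 2 + (m + 1)) * (volume K2).toReal ^ (m - 1)) := by
          rw [pow_add, hpow]; ring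
      _ ≤ κ * (volume K2).toReal *
          (kappa (m - 1) ^ m * kappa (m + 1) ^ (m - 1) * sectPow K2 (u i)) :=
          mul_le_mul_of_nonneg_left hi (mul_nonneg hκ hV.le)
      _ = (volume K2).toReal * kappa (m + 1) ^ (m - 1) *
          (κ * kappa (m - 1) ^ m * sectPow K2 (u i)) := by ring
      _ ≤ (volume K2).toReal * kappa (m + 1) ^ (m - 1) *
          (kappa m ^ (m - 2) * (shadow (projBody K2) (u i)).toReal) :=
          mul_le_mul_of_nonneg_left hS (mul_nonneg hV.le (pow_nonneg (kappa_pos _).le _))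
      _ = kappa m ^ (m - 2) * kappa (m + 1) ^ (m - 1) *
          ((volume K2).toReal * (shadow (projBody K2) (u i)).toReal) := by ring
      _ ≤ kappa m ^ (m - 2) * kappa (m + 1) ^ (m - 1) * (volume (projBody K2)).toReal :=
          mul_le_mul_of_nonneg_left h1
            (mul_nonneg (pow_nonneg hkm.le _) (pow_nonneg (kappa_pos _).le _))
      _ = _ := by ring
  intro L hL
  simp only [show m + 1 - 1 = m by omega, show m + 1 - 2 = m - 1 by omega]
  have hmL := hmin.2 L hL
  simp only [show m + 1 - 1 = m by omega] at hmL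
  refine le_of_mul_le_mul_right ?_ (pow_pos hV m)
  have h3 := mul_le_mul_of_nonneg_right hle (pow_nonneg (vol_pos hL).le m)
  have h4 := mul_le_mul_of_nonneg_left hmL (pow_nonneg (kappa_pos (m + 1)).le (m - 1))
  linarith

end Vale.Agent.P237.Full
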