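import Vale.Agent.P237.Full.Loss.Step

/-!
P237: a summable loss at the contacts gives one constant for every dimension.
-/

namespace Vale.Agent.P237.Full

open MeasureTheory Finset

/-- With an exact contact bound above `n₀`, a constant in dimension `n₀` persists above it. -/
theorem pettyC_above {n₀ : ℕ} (hn₀ : 2 ≤ n₀) {c : ℝ} (hc : 0 ≤ c) (h₀ : PettyAtC n₀ c)
    (H : ∀ k, n₀ < k → ContactBoundC k 1) {n : ℕ} (hn : n₀ ≤ n) : PettyAtC n c := by
  induction n, hn using Nat.le_induction with
  | base => exact h₀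
  | succ k hk ih => simpa using pettyC_step (n := k + 1) (by omega) hc ih (H (k + 1) (by omega))

/-- A summable loss at the contacts in all large dimensions gives one positive constant in all
dimensions. -/
theorem universal_constant {n₀ : ℕ} {d : ℕ → ℝ} (hd : ∀ k, 0 ≤ d k) (hs : Summable d)
    (H : ∀ n, n₀ ≤ n → ContactBoundC n (Real.exp (-d n))) :
    ∃ c, 0 < c ∧ ∀ n, 3 ≤ n → PettyAtC n c := by
  set N := max n₀ 3 with hN
  choose! a ha ha' using fun n (h : 3 ≤ n) => exists_pettyAtC h
  have hne : (Icc 3 N).Nonempty := ⟨3, mem_Icc.2 ⟨le_rfl, le_max_right _ _⟩⟩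
  set b := (Icc 3 N).inf' hne a with hb
  have hb0 : 0 < b := (lt_inf'_iff _).2 fun n hn => ha n (mem_Icc.1 hn).1
  have key : ∀ n, N ≤ n → PettyAtC n (b * Real.exp (-∑ k ∈ Ioc N n, d k)) := by
    intro n hn
    induction n, hn using Nat.le_induction with
    | base =>
      simpa using (ha' N (le_max_right _ _)).mono
        (inf'_le _ (mem_Icc.2 ⟨le_max_right _ _, le_rfl⟩))
    | succ k hk ih =>
      rw [sum_Ioc_succ_top hk, neg_add, Real.exp_add, ← mul_assoc]
      exact pettyC_step (n := k + 1) (by omega) (mul_nonneg hb0.le (Real.exp_pos _).le) ih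
        (H (k + 1) (by omega))
  refine ⟨b * Real.exp (-∑' k, d k), mul_pos hb0 (Real.exp_pos _), fun n hn => ?_⟩
  have ht : ∀ s : Finset ℕ, ∑ k ∈ s, d k ≤ ∑' k, d k := fun s =>
    hs.sum_le_tsum s fun k _ => hd k
  rcases le_total n N with h | h
  · refine (ha' n hn).mono ((mul_le_of_le_one_right hb0.le ?_).trans
      (inf'_le _ (mem_Icc.2 ⟨hn, h⟩)))
    exact Real.exp_le_one_iff.2 (neg_nonpos.2 (tsum_nonneg hd))
  · exact (key n h).mono (mul_le_mul_of_nonneg_left
      (Real.exp_le_exp.2 (neg_le_neg (ht _))) hb0.le)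

end Vale.Agent.P237.Full
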